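import Vale.Agent.P109.Stmt

/-! P109: definitions used in the proof. -/

namespace Vale.Agent.P109

open MeasureTheory Set Metric Filter Topology
open scoped ENNReal Pointwise

/-- Euclidean space with the sup norm. -/
abbrev E (d : ℕ) : Type := Fin d → ℝ

variable {d : ℕ}

/-! ### Chains of maps -/

/-- Symmetric compact convex sets. -/
structure SymCvx (B : Set (E d)) : Prop where
  cvx : Convex ℝ B
  cpt : IsCompact B
  zero : (0 : E d) ∈ B
  neg : ∀ x ∈ B, -x ∈ B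

/-- The orbit of a chain of maps. -/
def orb (g : ℕ → E d → E d) (u : E d) : ℕ → E d
  | 0 => u
  | j + 1 => g j (orb g u j)

/-- The Bowen ball of a chain of maps. -/
def Bd (g : ℕ → E d → E d) (N : ℕ) (r : ℝ) : Set (E d) := {u | ∀ j ≤ N, ‖orb g u j‖ ≤ r}

/-- Initial products of a chain of linear maps. -/
noncomputable def pp (A : ℕ → E d →L[ℝ] E d) : ℕ → E d →L[ℝ] E d
  | 0 => 1
  | j + 1 => (A j).comp (pp A j)

/-- The Bowen ball of a chain of linear maps. -/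
def Bl (A : ℕ → E d →L[ℝ] E d) (N : ℕ) (r : ℝ) : Set (E d) := {u | ∀ j ≤ N, ‖pp A j u‖ ≤ r}

/-- The shifted chain. -/
def sh (k : ℕ) (A : ℕ → E d →L[ℝ] E d) : ℕ → E d →L[ℝ] E d := fun i => A (k + i)

/-- The spliced chain. -/
def spl (m : ℕ) (A B : ℕ → E d →L[ℝ] E d) : ℕ → E d →L[ℝ] E d :=
  fun j => if j < m then A j else B (j - m)

/-- Linear shadowing with constant `K`. -/
def WRI (A : ℕ → E d →L[ℝ] E d) (N : ℕ) (K : ℝ) : Prop :=
  ∀ y : ℕ → E d, (∀ j, ‖y j‖ ≤ 1) →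
    ∃ w : ℕ → E d, (∀ j ≤ N, ‖w j‖ ≤ K) ∧ ∀ j < N, w (j + 1) = A j (w j) + y j

/-- Small vectors at time `j` are sums of a vector with bounded past and a vector with bounded
future. -/
def Dec (A : ℕ → E d →L[ℝ] E d) (N j : ℕ) (ρ : ℝ) : Prop :=
  ∀ e : E d, ‖e‖ ≤ ρ → ∃ u ∈ Bl A j 1, ∃ v ∈ Bl (sh j A) (N - j) 1, e = pp A j u + v

/-- The logarithmic volume loss of a linear map. -/
noncomputable def vv (P : E d →L[ℝ] E d) : ℝ :=
  -Real.log ((volume {u : E d | ‖u‖ ≤ 1 ∧ ‖P u‖ ≤ 1}).toReal / 2 ^ d)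

/-! ### Piecewise smooth models -/

/-- `f` is uniformly `C^{1,1}` on the ball of radius `r` around `x`. -/
def Good (f : E d → E d) (U : Set (E d)) (C r : ℝ) (x : E d) : Prop :=
  ball x r ⊆ U ∧ ∀ y ∈ ball x r, DifferentiableAt ℝ f y ∧ ‖fderiv ℝ f y‖ ≤ C ∧
    ∀ z ∈ ball x r, ‖fderiv ℝ f y - fderiv ℝ f z‖ ≤ C * ‖y - z‖

/-- A piecewise smooth map of a bounded set preserving a measure comparable to the volume. -/
structure PM (d : ℕ) (C : ℝ) where
  ν : Measure (E d)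
  f : E d → E d
  U : Set (E d)
  prob : IsProbabilityMeasure ν
  pres : MeasurePreserving f ν ν
  bdd : ∀ x ∈ U, ‖x‖ ≤ C
  le : ∀ A, MeasurableSet A → ν A ≤ ENNReal.ofReal C * volume A
  ge : ∀ A ⊆ U, MeasurableSet A → volume A ≤ ENNReal.ofReal C * ν A
  bad : ∀ r, 0 < r → ν {x | ¬ Good f U C r x} ≤ ENNReal.ofReal (C * r)

/-- The cube of the grid of mesh `σ` containing a point. -/
noncomputable def cell (σ : ℝ) (x : E d) : Fin d → ℤ := fun i => ⌊x i / σ⌋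

/-- Names: sequences of cubes. -/
abbrev Nm (d m : ℕ) : Type := Fin (m + 1) → Fin d → ℤ

namespace PM

variable {C : ℝ} (Z : PM d C)

open Classical in
/-- The truncated derivative. -/
noncomputable def A (x : E d) : E d →L[ℝ] E d :=
  if ‖fderiv ℝ Z.f x‖ ≤ C then fderiv ℝ Z.f x else 0

/-- The derivative cocycle. -/
noncomputable def co (t : ℕ) (x : E d) : E d →L[ℝ] E d := pp (fun i => Z.A (Z.f^[i] x)) t

/-- The chain of the derivatives over blocks of length `τ`. -/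
noncomputable def ch (τ : ℕ) (x : E d) : ℕ → E d →L[ℝ] E d := fun j => Z.co τ (Z.f^[j * τ] x)

/-- The name of a point. -/
noncomputable def nm (τ m : ℕ) (x : E d) : Nm d m :=
  fun j => cell ((C ^ τ)⁻¹ ^ 20) (Z.f^[j * τ] x)

/-- The orbit segment of length `t` is good at the scale attached to `τ`. -/
def GoodO (τ t : ℕ) (x : E d) : Prop := ∀ i ≤ t, Good Z.f Z.U C ((C ^ τ)⁻¹ ^ 18) (Z.f^[i] x)

/-- Good points for a double window. -/
def Good2 (τ m : ℕ) (x : E d) : Prop :=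
  Z.GoodO τ (2 * m * τ) x ∧ ∀ j ≤ 2 * m, Dec (Z.ch τ x) (2 * m) j ((C ^ τ)⁻¹ ^ 2)

/-- Points which may represent a name. -/
def Rep (τ m : ℕ) (x : E d) : Prop := Z.GoodO τ (m * τ) x ∧ WRI (Z.ch τ x) m ((C ^ τ) ^ 3)

end PM

/-! ### Predictors -/

/-- Positive subprobability kernels. -/
def Ker {N W : Type} [Fintype W] (k : N → W → ℝ) : Prop :=
  (∀ a y, 0 < k a y) ∧ ∀ a, ∑ y, k a y ≤ 1

/-- The logarithmic loss of a predictor. -/
noncomputable def Loss {Ω N W : Type} [MeasurableSpace Ω] (P : Measure Ω) (k : N → W → ℝ)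
    (a : Ω → N) (y : Ω → W) : ℝ≥0∞ :=
  ∫⁻ ω, ENNReal.ofReal (-Real.log (k (a ω) (y ω))) ∂P

/-- Pseudorandomness of a bipartite graph. -/
def PR {W W' : Type} [Fintype W] [Fintype W'] (lft rgt : W' → W) (ϑ t : ℝ≥0∞) : Prop :=
  ∀ (α β : W → ℝ≥0∞) (A B : ℝ≥0∞), ∑ u, α u ≤ A → ∑ u, β u ≤ B → (∀ u, α u ≤ ϑ * A) →
    (∀ u, β u ≤ ϑ * B) → ∑ y, α (lft y) * β (rgt y) ≤ t * (A * B)

/-! ### Adic systems -/

/-- The combinatorial data: words of level `n + 1` are pairs of words of level `n`. -/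
structure Fam (b D : ℕ → ℕ) where
  e : ∀ n, Bool → (Fin (2 ^ b (n + 1)) ≃ Fin (2 ^ b n) × Fin (2 ^ (b n - D n)))
  b0 : b 0 = 1
  step : ∀ n, b (n + 1) + D n = 2 * b n
  small : ∀ n, 6 * D n ≤ b n
  inj : ∀ n, Function.Injective fun y => ((e n false y).1, (e n true y).1)
  pr : ∀ n, PR (fun y => (e n false y).1) (fun y => (e n true y).1)
    (2 ^ (b n - b n / 4))⁻¹ (2 * (2 ^ D n)⁻¹)

namespace Fam

variable {b D : ℕ → ℕ} (F : Fam b D)

/-- The left half of a word. -/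
def lft (n : ℕ) (y : Fin (2 ^ b (n + 1))) : Fin (2 ^ b n) := (F.e n false y).1

/-- The right half of a word. -/
def rgt (n : ℕ) (y : Fin (2 ^ b (n + 1))) : Fin (2 ^ b n) := (F.e n true y).1

/-- The letter of a word at a position. -/
def lt : ∀ n, Fin (2 ^ b n) → ℕ → Fin (2 ^ b 0)
  | 0, y, _ => y
  | n + 1, y, p => if p < 2 ^ n then lt n (F.lft n y) p else lt n (F.rgt n y) (p - 2 ^ n)

end Fam

/-- The tower structure: position in the block of level `n` and word of that block. -/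
structure Adic {b D : ℕ → ℕ} (F : Fam b D) {X : Type} [MeasurableSpace X] (μ : Measure X)
    (T : X → X) where
  pos : ℕ → X → ℕ
  w : ∀ n, X → Fin (2 ^ b n)
  meas_pos : ∀ n, Measurable (pos n)
  meas_w : ∀ n, Measurable (w n)
  pos_lt : ∀ n x, pos n x < 2 ^ n
  pos_T : ∀ n x, pos n (T x) = (pos n x + 1) % 2 ^ n
  w_T : ∀ n x, pos n x + 1 < 2 ^ n → w n (T x) = w n x
  pos_succ : ∀ n x, pos (n + 1) x % 2 ^ n = pos n x
  w_succ : ∀ n x, w n x =
    if pos (n + 1) x < 2 ^ n then F.lft n (w (n + 1) x) else F.rgt n (w (n + 1) x)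
  unif : ∀ n p y, p < 2 ^ n → μ {x | pos n x = p ∧ w n x = y} = (2 ^ n * 2 ^ b n)⁻¹

/-- The normalised measure on the base of the tower of level `n`. -/
noncomputable def Adic.P {b D : ℕ → ℕ} {F : Fam b D} {X : Type} [MeasurableSpace X]
    {μ : Measure X} {T : X → X} (Ad : Adic F μ T) (n : ℕ) : Measure X :=
  (2 ^ n : ℝ≥0∞) • μ.restrict {x | Ad.pos n x = 0}

/-- The towers generate the measure algebra. -/
def Adic.Gen {b D : ℕ → ℕ} {F : Fam b D} {X : Type} [MeasurableSpace X]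
    {μ : Measure X} {T : X → X} (Ad : Adic F μ T) : Prop :=
  ∀ A, MeasurableSet A → ∀ ε : ℝ≥0∞, 0 < ε → ∃ (n : ℕ) (B : Set (ℕ × Fin (2 ^ b n))),
    μ (symmDiff A {x | (Ad.pos n x, Ad.w n x) ∈ B}) < ε

/-- An adic system with a piecewise smooth factor which sees the letters. -/
structure Joint (d : ℕ) (C : ℝ) {b D : ℕ → ℕ} (F : Fam b D) (Ω : Type) [MeasurableSpace Ω] where
  μ : Measure Ω
  T : Ω → Ω
  prob : IsProbabilityMeasure μ
  pres : MeasurePreserving T μ μ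
  Ad : Adic F μ T
  Z : PM d C
  Φ : Ω → E d
  hΦ : MeasurePreserving Φ μ Z.ν
  equi : ∀ ω, Φ (T ω) = Z.f (Φ ω)
  K : Fin (2 ^ b 0) → Set (E d)
  measK : ∀ c, MeasurableSet (K c)
  sep : ∀ c c', c ≠ c' → ∀ x ∈ K c, ∀ x' ∈ K c', C⁻¹ ≤ ‖x - x'‖
  see : μ {ω | Φ ω ∉ K (Ad.w 0 ω)} ≤ 10⁻¹

namespace Joint

variable {C : ℝ} {b D : ℕ → ℕ} {F : Fam b D} {Ω : Type} [MeasurableSpace Ω] (J : Joint d C F Ω)

/-- There is a predictor of the word of level `n` from the name with loss at most `x`. -/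
def Pred (l n : ℕ) (x : ℝ) : Prop :=
  ∃ k : Nm d (2 ^ l) → Fin (2 ^ b n) → ℝ, Ker k ∧ ∃ s : ℝ, 0 ≤ s ∧ s ≤ x ∧
    Loss (J.Ad.P n) k (fun ω => J.Z.nm (2 ^ (n - l)) (2 ^ l) (J.Φ ω)) (J.Ad.w n) ≤
      ENNReal.ofReal s

/-- The mean expansion rate at level `j`. -/
noncomputable def a (j : ℕ) : ℝ := (∫ ω, vv (J.Z.co (2 ^ j) (J.Φ ω)) ∂(J.Ad.P j)) / 2 ^ j

end Joint

/-! ### Atlases -/

/-- What is used of a manifold with a smooth map and a smooth positive measure. -/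
structure Atl (d : ℕ) {M : Type} [TopologicalSpace M] [MeasurableSpace M] (ν : Measure M)
    (S : M → M) where
  Rg : Set (E d)
  cvx : Convex ℝ Rg
  int : (interior Rg).Nonempty
  closed : IsClosed Rg
  e : M → PartialEquiv M (E d)
  mem : ∀ p, p ∈ (e p).source
  opn : ∀ p, IsOpen (e p).source
  cont : ∀ p, ContinuousOn (e p) (e p).source
  cont' : ∀ p, ContinuousOn (e p).symm (e p).target
  tgt : ∀ p, ∃ O, IsOpen O ∧ (e p).target = O ∩ Rg
  contS : Continuous S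
  smS : ∀ p q, ContDiffOn ℝ 2 (e q ∘ S ∘ (e p).symm)
    ((e p).target ∩ (e p).symm ⁻¹' (S ⁻¹' (e q).source))
  smI : ∀ p q, ContDiffOn ℝ 2 (e q ∘ (e p).symm) ((e p).target ∩ (e p).symm ⁻¹' (e q).source)
  dens : ∀ p, ∃ ρ : E d → ℝ, ContinuousOn ρ (e p).target ∧ (∀ y ∈ (e p).target, 0 < ρ y) ∧
    ∀ A ⊆ (e p).target, MeasurableSet A →
      ν ((e p).source ∩ e p ⁻¹' A) = ∫⁻ y in A, ENNReal.ofReal (ρ y)

end Vale.Agent.P109
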